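import Vale.Agent.P284.H286.K.EngD
import Mathlib.Analysis.Calculus.BumpFunction.FiniteDimension

/-!
# P284 (helper752), theorem K, module K3 (second half): cut-off functions in the charts
-/

open scoped ContDiff Topology ComplexConjugate ComplexOrder ENNReal
open Filter Set MeasureTheory

noncomputable section

namespace Vale.Agent.P284.H752.K3

open Vale.Agent.P272.K Vale.Agent.P284.H608.K Vale.Agent.P284.H286.K

variable {n : ℕ} {M : Type} [TopologicalSpace M] [MeasurableSpace M] (K : KA n M)

/-- smooth functions -/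
def SmFn (f : M → ℝ) : Prop :=
  ∀ i, ∀ z ∈ (K.e i).target, ContDiffAt ℝ ∞ (fun z => f ((K.e i).symm z)) z

/-- smooth functions with compact support in the chart `i` -/
structure Bump (i : K.I) (β : M → ℝ) : Prop where
  sm : SmFn K β
  supp : ∃ C, IsCompact C ∧ C ⊆ (K.e i).source ∧ ∀ x, x ∉ C → β x = 0

/-- the product of a function and a form -/
def fm {p : ℕ} (f : M → ℝ) (s : K.Fm p) : K.Fm p := fun i z =>
  ((f ((K.e i).symm z) : ℝ) : ℂ) • s i z

variable {K}

theorem form_fm {p : ℕ} {f : M → ℝ} {s : K.Fm p} (h1 : K.IsForm s) : K.IsForm (fm K f s) where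
  change := by
    intro i j x hi hj
    have e1 := h1.change i j x hi hj
    ext v
    have f1 := congrArg (fun A : Af n p => A v) e1
    simp only [ContinuousAlternatingMap.smul_apply,
      ContinuousAlternatingMap.compContinuousLinearMap_apply, smul_eq_mul, fm,
      (K.e i).left_inv hi, (K.e j).left_inv hj] at f1 ⊢
    rw [f1]
    ring
  off := by
    intro i z hz
    unfold fm
    rw [h1.off i z hz]
    ext v
    exact mul_zero _

theorem smooth_fm {p : ℕ} {f : M → ℝ} (hf : SmFn K f) {s : K.Fm p} (h2 : K.Smooth s) :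
    K.Smooth (fm K f s) := fun i z hz =>
  (Complex.ofRealCLM.contDiff.contDiffAt.comp z (hf i z hz)).smul (h2 i z hz)

theorem off_fm {p : ℕ} {f : M → ℝ} {s : K.Fm p} {C : Set M} (h : K.Off C s) :
    K.Off C (fm K f s) := by
  intro i x hi hx
  unfold fm
  rw [h i x hi hx]
  ext v
  exact mul_zero _

theorem off_fm' {p : ℕ} {f : M → ℝ} (s : K.Fm p) {C : Set M} (h : ∀ x, x ∉ C → f x = 0) :
    K.Off C (fm K f s) := by
  intro i x hi hx
  unfold fm
  rw [(K.e i).left_inv hi, h x hx]
  ext v
  change ((0 : ℝ) : ℂ) * _ = 0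
  rw [Complex.ofReal_zero, zero_mul]

theorem test_fm {p : ℕ} {f : M → ℝ} (hf : SmFn K f) {s : K.Fm p} (h : K.Test s) :
    K.Test (fm K f s) where
  form := form_fm h.form
  smooth := smooth_fm hf h.smooth
  supp := by
    obtain ⟨C, hC, h3⟩ := h.supp
    exact ⟨C, hC, off_fm h3⟩

theorem smFn_const (c : ℝ) : SmFn K fun _ => c := fun _ _ _ => contDiffAt_const

theorem SmFn.mul {f g : M → ℝ} (hf : SmFn K f) (hg : SmFn K g) : SmFn K fun x => f x * g x :=
  fun i z hz => (hf i z hz).mul (hg i z hz)

theorem SmFn.sub {f g : M → ℝ} (hf : SmFn K f) (hg : SmFn K g) : SmFn K fun x => f x - g x :=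
  fun i z hz => (hf i z hz).sub (hg i z hz)

variable [T2Space M]

/-- there is a cut-off function near every point -/
theorem exists_bump (x : M) : ∃ (i : K.I) (β : M → ℝ), Bump K i β ∧ ∀ᶠ y in 𝓝 x, β y = 1 := by
  classical
  obtain ⟨i, hi⟩ := K.cover x
  have hz := (K.e i).map_source hi
  obtain ⟨r, hr, hrb⟩ := Metric.isOpen_iff.1 (K.e i).open_target _ hz
  let b : ContDiffBump (K.e i x) := ⟨r / 4, r / 2, by positivity, by linarith⟩
  set B := Metric.closedBall (K.e i x) (r / 2) with hB
  have hBt : B ⊆ (K.e i).target :=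
    (Metric.closedBall_subset_ball (by linarith)).trans hrb
  have hBc : IsCompact B := isCompact_closedBall _ _
  set C := (K.e i).symm '' B with hC
  have hCc : IsCompact C := hBc.image_of_continuousOn ((K.e i).continuousOn_symm.mono hBt)
  have hCs : C ⊆ (K.e i).source := by
    rintro _ ⟨y, hy, rfl⟩
    exact (K.e i).map_target (hBt hy)
  refine ⟨i, fun y => if y ∈ (K.e i).source then b (K.e i y) else 0, ⟨?_, C, hCc, hCs, ?_⟩, ?_⟩
  · intro j z hz'
    by_cases h : (K.e j).symm z ∈ (K.e i).source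
    · -- the transition is smooth
      have h1 : ContDiffAt ℝ ∞ (fun z => K.e i ((K.e j).symm z)) z :=
        ((K.hol j i z hz' h).contDiffAt (n := (∞ : WithTop ℕ∞))).restrict_scalars ℝ
      have h2 : ContDiffAt ℝ ∞ (fun z => b (K.e i ((K.e j).symm z))) z :=
        (b.contDiff.contDiffAt).comp z h1
      refine h2.congr_of_eventuallyEq ?_
      have h3 : ∀ᶠ y in 𝓝 z, (K.e j).symm y ∈ (K.e i).source :=
        ((K.e j).symm.continuousAt hz').eventually_mem ((K.e i).open_source.mem_nhds h)
      filter_upwards [h3] with y hy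
      exact if_pos hy
    · have h1 : (K.e j).symm z ∉ C := fun h' => h (hCs h')
      have h3 : ∀ᶠ y in 𝓝 z, (K.e j).symm y ∉ C :=
        ((K.e j).symm.continuousAt hz').eventually_mem
          (hCc.isClosed.isOpen_compl.mem_nhds h1)
      refine (contDiffAt_const (c := (0 : ℝ))).congr_of_eventuallyEq ?_
      filter_upwards [h3] with y hy
      split_ifs with hys
      · by_contra hne
        apply hy
        refine ⟨K.e i ((K.e j).symm y), ?_, (K.e i).left_inv hys⟩
        have h4 := b.support_eq.subset (show K.e i ((K.e j).symm y) ∈ Function.support b from hne)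
        exact Metric.ball_subset_closedBall h4
      · rfl
  · intro y hy
    show (if y ∈ (K.e i).source then b (K.e i y) else 0) = 0
    split_ifs with hys
    · by_contra hne
      apply hy
      refine ⟨K.e i y, ?_, (K.e i).left_inv hys⟩
      have h4 := b.support_eq.subset (show K.e i y ∈ Function.support b from hne)
      exact Metric.ball_subset_closedBall h4
    · rfl
  · have h3 : ∀ᶠ y in 𝓝 x, K.e i y ∈ Metric.closedBall (K.e i x) (r / 4) :=
      ((K.e i).continuousAt hi).eventually_mem (Metric.closedBall_mem_nhds _ (by positivity))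
    filter_upwards [h3, (K.e i).open_source.mem_nhds hi] with y hy hys
    rw [if_pos hys]
    exact b.one_of_mem_closedBall hy

/-- finitely many cut-off functions -/
theorem exists_list {C : Set M} (hC : IsCompact C) :
    ∃ L : List (M → ℝ), (∀ β ∈ L, ∃ i, Bump K i β) ∧
      ∀ x ∈ C, (L.map fun β => 1 - β x).prod = 0 := by
  refine hC.induction_on (p := fun C => ∃ L : List (M → ℝ), (∀ β ∈ L, ∃ i, Bump K i β) ∧
      ∀ x ∈ C, (L.map fun β => 1 - β x).prod = 0) ?_ ?_ ?_ ?_
  · exact ⟨[], fun β h => by simp at h, fun x hx => absurd hx (notMem_empty x)⟩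
  · rintro s t hst ⟨L, h1, h2⟩
    exact ⟨L, h1, fun x hx => h2 x (hst hx)⟩
  · rintro s t ⟨L, h1, h2⟩ ⟨L', h1', h2'⟩
    refine ⟨L ++ L', fun β hβ => ?_, fun x hx => ?_⟩
    · rcases List.mem_append.1 hβ with h | h
      · exact h1 β h
      · exact h1' β h
    · rw [List.map_append, List.prod_append]
      rcases hx with hx | hx
      · rw [h2 x hx, zero_mul]
      · rw [h2' x hx, mul_zero]
  · intro x _
    obtain ⟨i, β, hβ, h⟩ := exists_bump (K := K) x
    refine ⟨{y | β y = 1}, nhdsWithin_le_nhds h, [β], fun γ hγ => ?_, fun y hy => ?_⟩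
    · rw [List.mem_singleton] at hγ
      exact ⟨i, hγ ▸ hβ⟩
    · have : β y = 1 := hy
      simp [this]

/-- the localisation principle: an additive functional of the test forms, which vanishes on the test
forms supported in a chart, is zero -/
theorem local_zero {p : ℕ} (Φ : K.Fm p → ℂ)
    (hadd : ∀ τ τ', K.Test τ → K.Test τ' → Φ (τ + τ') = Φ τ + Φ τ')
    (hloc : ∀ (i : K.I) (τ : K.Fm p), K.Test τ →
      (∃ C, IsCompact C ∧ C ⊆ (K.e i).source ∧ K.Off C τ) → Φ τ = 0)
    (τ : K.Fm p) (hτ : K.Test τ) : Φ τ = 0 := by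
  obtain ⟨C, hC, hoff⟩ := hτ.supp
  obtain ⟨L, hL, hL0⟩ := exists_list (K := K) hC
  have key : ∀ (L : List (M → ℝ)), (∀ β ∈ L, ∃ i, Bump K i β) → ∀ τ : K.Fm p, K.Test τ →
      Φ τ = Φ (fm K (fun x => (L.map fun β => 1 - β x).prod) τ) ∧
        K.Test (fm K (fun x => (L.map fun β => 1 - β x).prod) τ) := by
    intro L
    induction L with
    | nil =>
      intro _ τ hτ
      have : fm K (fun x => (List.map (fun β : M → ℝ => 1 - β x) []).prod) τ = τ := by
        funext i z
        unfold fm
        ext v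
        simp
      rw [this]
      exact ⟨rfl, hτ⟩
    | cons β L ih =>
      intro hL τ hτ
      obtain ⟨i, hβ⟩ := hL β List.mem_cons_self
      obtain ⟨C', hC', hC's, h0⟩ := hβ.supp
      have t1 : K.Test (fm K β τ) := test_fm hβ.sm hτ
      have t2 : K.Test (fm K (fun x => 1 - β x) τ) := test_fm ((smFn_const 1).sub hβ.sm) hτ
      have e1 : τ = fm K β τ + fm K (fun x => 1 - β x) τ := by
        funext i z
        change τ i z = fm K β τ i z + fm K (fun x => 1 - β x) τ i z
        unfold fm
        ext v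
        simp only [ContinuousAlternatingMap.add_apply, ContinuousAlternatingMap.smul_apply,
          smul_eq_mul, Complex.ofReal_sub, Complex.ofReal_one]
        ring
      have e2 : Φ τ = Φ (fm K (fun x => 1 - β x) τ) := by
        conv_lhs => rw [e1]
        rw [hadd _ _ t1 t2, hloc i _ t1 ⟨C', hC', hC's, off_fm' τ h0⟩, zero_add]
      obtain ⟨e3, e4⟩ := ih (fun γ hγ => hL γ (List.mem_cons_of_mem _ hγ)) _ t2
      have e5 : fm K (fun x => (List.map (fun β : M → ℝ => 1 - β x) L).prod)
          (fm K (fun x => 1 - β x) τ) =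
          fm K (fun x => (List.map (fun β : M → ℝ => 1 - β x) (β :: L)).prod) τ := by
        funext i z
        unfold fm
        ext v
        simp only [ContinuousAlternatingMap.smul_apply, smul_eq_mul, List.map_cons,
          List.prod_cons, Complex.ofReal_mul, Complex.ofReal_sub, Complex.ofReal_one]
        ring
      rw [e5] at e3 e4
      exact ⟨e2.trans e3, e4⟩
  obtain ⟨h1, -⟩ := key L hL τ hτ
  rw [h1]
  have h2 : fm K (fun x => (L.map fun β => 1 - β x).prod) τ = 0 := by
    funext i z
    change fm K (fun x => (L.map fun β => 1 - β x).prod) τ i z = 0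
    by_cases hz : z ∈ (K.e i).target
    · by_cases hx : (K.e i).symm z ∈ C
      · have e := hL0 _ hx
        unfold fm
        simp only [e]
        ext v
        change ((0 : ℝ) : ℂ) * _ = 0
        rw [Complex.ofReal_zero, zero_mul]
      · unfold fm
        have := hoff i ((K.e i).symm z) ((K.e i).map_target hz) hx
        rw [(K.e i).right_inv hz] at this
        rw [this]
        ext v
        exact mul_zero _
    · exact (form_fm hτ.form).off i z hz
  rw [h2]
  have h3 := hadd 0 0 (test_zero K) (test_zero K)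
  rw [add_zero] at h3
  exact left_eq_add.1 h3

/-! ### supports of the derivatives -/

omit [T2Space M] in
theorem evZero {p : ℕ} {τ : K.Fm p} {C : Set M} (hC : IsClosed C) (h : K.Off C τ) {i : K.I} {x : M}
    (hi : x ∈ (K.e i).source) (hx : x ∉ C) : τ i =ᶠ[𝓝 (K.e i x)] fun _ => 0 := by
  have hz := (K.e i).map_source hi
  have h1 : ∀ᶠ y in 𝓝 (K.e i x), (K.e i).symm y ∉ C :=
    ((K.e i).symm.continuousAt hz).eventually_mem
      (hC.isOpen_compl.mem_nhds (by rw [(K.e i).left_inv hi]; exact hx))
  filter_upwards [h1, (K.e i).open_target.mem_nhds hz] with y hy hyt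
  have := h i ((K.e i).symm y) ((K.e i).map_target hyt) hy
  rwa [(K.e i).right_inv hyt] at this

theorem dzV_zero {V : Type} [NormedAddCommGroup V] [NormedSpace ℂ V] {a : Fin n} {η : Cm n → V}
    {z : Cm n} (h : η =ᶠ[𝓝 z] fun _ => 0) : dzV a η z = 0 := by
  unfold dzV
  rw [h.fderiv_eq]
  simp

theorem dbV_zero {V : Type} [NormedAddCommGroup V] [NormedSpace ℂ V] {a : Fin n} {η : Cm n → V}
    {z : Cm n} (h : η =ᶠ[𝓝 z] fun _ => 0) : dbV a η z = 0 := by
  unfold dbV
  rw [h.fderiv_eq]
  simp

theorem zero_uncurry {p : ℕ} : ContinuousAlternatingMap.alternatizeUncurryFin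
    (0 : Cm n →L[ℂ] Af n p) = 0 := by
  ext v
  simp [ContinuousAlternatingMap.alternatizeUncurryFin_apply]

theorem off_dh {p : ℕ} {τ : K.Fm p} {C : Set M} (hC : IsClosed C) (h : K.Off C τ) :
    K.Off C (K.dh τ) := by
  intro i x hi hx
  have h1 := evZero hC h hi hx
  unfold KA.dh
  rw [if_pos ((K.e i).map_source hi)]
  unfold dhL
  have h2 : ∀ a, (dzV a (τ i) (K.e i x) - dz a (fun y => (K.φ i y : ℂ)) (K.e i x) •
      τ i (K.e i x)) = 0 := by
    intro a
    rw [dzV_zero h1, h1.self_of_nhds]
    ext v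
    change (0 : ℂ) - _ * 0 = 0
    ring
  simp only [h2]
  have h3 : (∑ a, (ContinuousLinearMap.proj (R := ℂ) (φ := fun _ : Fin n => ℂ) a).smulRight
      (0 : Af n p)) = 0 := by
    refine Finset.sum_eq_zero fun a _ => ?_
    ext v u
    exact mul_zero _
  rw [h3, zero_uncurry]

theorem off_S {p : ℕ} {τ : K.Fm (p + 1)} {C : Set M} (hC : IsClosed C) (h : K.Off C τ) :
    K.Off C (K.S τ) := by
  intro i x hi hx
  have h1 := evZero hC h hi hx
  unfold KA.S
  rw [if_pos ((K.e i).map_source hi)]
  unfold SL Lam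
  ext v
  have h2 : ∀ b, dbV b (τ i) (K.e i x) = 0 := fun b => dbV_zero h1
  simp only [h2]
  change -(∑ a, ∑ b, (K.w i (K.e i x))⁻¹ b a •
    (0 : Af n (p + 1)).curryLeft (Pi.single a 1)) v = (0 : ℂ)
  simp

omit [T2Space M] in
theorem dn_off_left {p : ℕ} {η : K.Fm p} (ζ : K.Fm p) {C : Set M} (h : K.Off C η) {x : M}
    (hx : x ∉ C) : K.dn η ζ x = 0 := by
  unfold KA.dn
  rw [h _ x (mem_ix K x) hx, hn_zero_left, mul_zero]

end Vale.Agent.P284.H752.K3
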