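import Vale.Agent.P284.H752.K3.Mu
import Vale.Agent.P284.H752.K3.Bump

/-!
# P284 (helper752), theorem K, module K3 (second half): the densities
-/

open scoped ContDiff Topology ComplexConjugate ComplexOrder ENNReal
open Filter Set MeasureTheory

noncomputable section

namespace Vale.Agent.P284.H752.K3

open Vale.Agent.P272.K Vale.Agent.P284.H608.K Vale.Agent.P284.H286.K

/-- the first half of K3 -/
structure K3aStmt (n : ℕ) (M : Type) [TopologicalSpace M] [T2Space M] [MeasurableSpace M]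
    [BorelSpace M] (K : KA n M) : Prop where
  dn_eq : ∀ (p : ℕ) (η ζ : K.Fm p), K.IsForm η → K.IsForm ζ → ∀ i x, x ∈ (K.e i).source →
    K.dn η ζ x = (Real.exp (-K.φ i (K.e i x)) : ℂ) *
      hn (K.w i (K.e i x)) (η i (K.e i x)) (ζ i (K.e i x))
  dT_eq : ∀ (p : ℕ) (η : K.Fm p), K.IsForm η → K.Smooth η → ∀ i x, x ∈ (K.e i).source →
    K.dT η x = Real.exp (-K.φ i (K.e i x)) *
      (Tn (K.w i (K.e i x)) fun b => dbV b (η i) (K.e i x)).re
  dA_eq : ∀ (p : ℕ) (η : K.Fm p), K.IsForm η → ∀ i x, x ∈ (K.e i).source →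
    K.dA η x = Real.exp (-K.φ i (K.e i x)) *
      (Ad (K.w i (K.e i x)) (cHess (K.φ i) (K.e i x)) (η i (K.e i x))).re
  dh_form : ∀ (p : ℕ) (η : K.Fm p), K.IsForm η → K.Smooth η →
    K.IsForm (K.dh η) ∧ K.Smooth (K.dh η)
  S_form : ∀ (p : ℕ) (η : K.Fm (p + 1)), K.IsForm η → K.Smooth η →
    K.IsForm (K.S η) ∧ K.Smooth (K.S η)
  dh_test : ∀ (p : ℕ) (η : K.Fm p), K.Test η → K.Test (K.dh η)
  S_test : ∀ (p : ℕ) (η : K.Fm (p + 1)), K.Test η → K.Test (K.S η)
  dh_dh : ∀ (p : ℕ) (η : K.Fm p), K.Test η → K.dh (K.dh η) = 0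

section alg

variable {n p : ℕ}

theorem wdz_apply (c : Fin n) (η : Af n p) (v : Fin (p + 1) → Cm n) :
    wdz c η v = ∑ i : Fin (p + 1), (-1 : ℂ) ^ (i : ℕ) * (v i c * η (i.removeNth v)) := by
  unfold wdz
  rw [ContinuousAlternatingMap.alternatizeUncurryFin_apply]
  refine Finset.sum_congr rfl fun i _ => ?_
  change (-1 : ℤ) ^ (i : ℕ) • (v i c * η (i.removeNth v)) = _
  rw [zsmul_eq_mul]
  simp

theorem wdz_add (c : Fin n) (η ζ : Af n p) : wdz c (η + ζ) = wdz c η + wdz c ζ := by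
  ext v
  rw [ContinuousAlternatingMap.add_apply, wdz_apply, wdz_apply, wdz_apply,
    ← Finset.sum_add_distrib]
  refine Finset.sum_congr rfl fun i _ => ?_
  rw [ContinuousAlternatingMap.add_apply]
  ring

theorem wdz_smul (c : Fin n) (a : ℂ) (η : Af n p) : wdz c (a • η) = a • wdz c η := by
  ext v
  rw [ContinuousAlternatingMap.smul_apply, wdz_apply, wdz_apply, smul_eq_mul, Finset.mul_sum]
  refine Finset.sum_congr rfl fun i _ => ?_
  rw [ContinuousAlternatingMap.smul_apply, smul_eq_mul]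
  ring

theorem wdz_zero (c : Fin n) : wdz c (0 : Af n p) = 0 := by
  ext v
  rw [wdz_apply]
  simp

/-- the sesquilinear version of `Tn` -/
def Ts (w : Matrix (Fin n) (Fin n) ℂ) (T T' : Fin n → Af n p) : ℂ :=
  ∑ b, ∑ b', w⁻¹ b b' * hn w (T b) (T' b')

/-- the sesquilinear version of `Ad` -/
def As (w β : Matrix (Fin n) (Fin n) ℂ) (η τ : Af n p) : ℂ :=
  ∑ c, ∑ d, β c d * hn w (wdz c η) (wdz d τ)

variable (w β : Matrix (Fin n) (Fin n) ℂ)

theorem Ts_add_left (T T₂ T' : Fin n → Af n p) :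
    Ts w (fun b => T b + T₂ b) T' = Ts w T T' + Ts w T₂ T' := by
  unfold Ts
  simp only [← Finset.sum_add_distrib]
  refine Finset.sum_congr rfl fun b _ => Finset.sum_congr rfl fun b' _ => ?_
  rw [hn_add_left]; ring

theorem Ts_add_right (T T' T₂ : Fin n → Af n p) :
    Ts w T (fun b => T' b + T₂ b) = Ts w T T' + Ts w T T₂ := by
  unfold Ts
  simp only [← Finset.sum_add_distrib]
  refine Finset.sum_congr rfl fun b _ => Finset.sum_congr rfl fun b' _ => ?_
  rw [hn_add_right]; ring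

theorem Ts_smul_right (c : ℂ) (T T' : Fin n → Af n p) :
    Ts w T (fun b => c • T' b) = conj c * Ts w T T' := by
  unfold Ts
  simp only [Finset.mul_sum]
  refine Finset.sum_congr rfl fun b _ => Finset.sum_congr rfl fun b' _ => ?_
  rw [hn_smul_right]; ring

theorem As_add_left (η η₂ τ : Af n p) : As w β (η + η₂) τ = As w β η τ + As w β η₂ τ := by
  unfold As
  simp only [← Finset.sum_add_distrib]
  refine Finset.sum_congr rfl fun b _ => Finset.sum_congr rfl fun b' _ => ?_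
  rw [wdz_add, hn_add_left]; ring

theorem As_add_right (η τ τ₂ : Af n p) : As w β η (τ + τ₂) = As w β η τ + As w β η τ₂ := by
  unfold As
  simp only [← Finset.sum_add_distrib]
  refine Finset.sum_congr rfl fun b _ => Finset.sum_congr rfl fun b' _ => ?_
  rw [wdz_add, hn_add_right]; ring

theorem As_smul_right (c : ℂ) (η τ : Af n p) : As w β η (c • τ) = conj c * As w β η τ := by
  unfold As
  simp only [Finset.mul_sum]
  refine Finset.sum_congr rfl fun b _ => Finset.sum_congr rfl fun b' _ => ?_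
  rw [wdz_smul, hn_smul_right]; ring

variable {w β}

theorem Ts_conj (k1 : K1Stmt) (hw : w.PosDef) (T T' : Fin n → Af n p) :
    Ts w T' T = conj (Ts w T T') := by
  unfold Ts
  simp only [map_sum, map_mul]
  rw [Finset.sum_comm]
  refine Finset.sum_congr rfl fun b _ => Finset.sum_congr rfl fun b' _ => ?_
  rw [k1.conj_symm n p w hw (T' b') (T b)]
  congr 1
  exact (hw.inv.isHermitian.apply b' b).symm

theorem As_conj (k1 : K1Stmt) (hw : w.PosDef) (hβ : β.IsHermitian) (η τ : Af n p) :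
    As w β τ η = conj (As w β η τ) := by
  unfold As
  simp only [map_sum, map_mul]
  rw [Finset.sum_comm]
  refine Finset.sum_congr rfl fun b _ => Finset.sum_congr rfl fun b' _ => ?_
  rw [k1.conj_symm n (p + 1) w hw (wdz b' τ) (wdz b η)]
  congr 1
  exact (hβ.apply b' b).symm

/-- polarisation -/
theorem polar {a b x y : ℂ} {A B : ℂ} (h1 : (a + A + conj A + b).re = (x + B + conj B + y).re)
    (h2 : a.re = x.re) (h3 : b.re = y.re) : A.re = B.re := by
  simp only [Complex.add_re, Complex.conj_re] at h1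
  linarith

end alg

variable {n : ℕ} {M : Type} [TopologicalSpace M] [MeasurableSpace M] {K : KA n M}

/-- the sesquilinear densities in the chart `i` -/
def lT (K : KA n M) {p : ℕ} (i : K.I) (η τ : K.Fm p) (z : Cm n) : ℂ :=
  (Real.exp (-K.φ i z) : ℂ) * Ts (K.w i z) (fun b => dbV b (η i) z) fun b => dbV b (τ i) z

def lA (K : KA n M) {p : ℕ} (i : K.I) (η τ : K.Fm p) (z : Cm n) : ℂ :=
  (Real.exp (-K.φ i z) : ℂ) * As (K.w i z) (cHess (K.φ i) z) (η i z) (τ i z)

/-- the sesquilinear densities -/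
def gT {p : ℕ} (η τ : K.Fm p) (x : M) : ℂ := lT K (K.ix x) η τ (K.e (K.ix x) x)

def gA {p : ℕ} (η τ : K.Fm p) (x : M) : ℂ := lA K (K.ix x) η τ (K.e (K.ix x) x)

theorem dT_gT {p : ℕ} (η : K.Fm p) (x : M) : K.dT η x = (gT η η x).re := by
  unfold KA.dT gT lT
  rw [Complex.re_ofReal_mul]
  rfl

theorem dA_gA {p : ℕ} (η : K.Fm p) (x : M) : K.dA η x = (gA η η x).re := by
  unfold KA.dA gA lA
  rw [Complex.re_ofReal_mul]
  rfl

section add

variable {p : ℕ} {i : K.I} {z : Cm n}

theorem diffAt {η : K.Fm p} (h : K.Smooth η) (hz : z ∈ (K.e i).target) :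
    DifferentiableAt ℝ (η i) z := (h i z hz).differentiableAt (by simp)

theorem lT_add_left {η η₂ : K.Fm p} (τ : K.Fm p) (h1 : K.Smooth η) (h2 : K.Smooth η₂)
    (hz : z ∈ (K.e i).target) : lT K i (η + η₂) τ z = lT K i η τ z + lT K i η₂ τ z := by
  unfold lT
  rw [← mul_add, ← Ts_add_left]
  congr 2
  funext b
  exact dbV_add b (diffAt h1 hz) (diffAt h2 hz)

theorem lT_add_right (η : K.Fm p) {τ τ₂ : K.Fm p} (h1 : K.Smooth τ) (h2 : K.Smooth τ₂)
    (hz : z ∈ (K.e i).target) : lT K i η (τ + τ₂) z = lT K i η τ z + lT K i η τ₂ z := by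
  unfold lT
  rw [← mul_add, ← Ts_add_right]
  congr 2
  funext b
  exact dbV_add b (diffAt h1 hz) (diffAt h2 hz)

theorem lT_smul_right (c : ℂ) (η : K.Fm p) {τ : K.Fm p} (h1 : K.Smooth τ)
    (hz : z ∈ (K.e i).target) : lT K i η (c • τ) z = conj c * lT K i η τ z := by
  unfold lT
  rw [mul_left_comm, ← Ts_smul_right]
  congr 2
  funext b
  exact dbV_smul b c (diffAt h1 hz)

theorem lA_add_left (η η₂ τ : K.Fm p) : lA K i (η + η₂) τ z = lA K i η τ z + lA K i η₂ τ z := by
  unfold lA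
  rw [← mul_add, ← As_add_left]
  rfl

theorem lA_add_right (η τ τ₂ : K.Fm p) : lA K i η (τ + τ₂) z = lA K i η τ z + lA K i η τ₂ z := by
  unfold lA
  rw [← mul_add, ← As_add_right]
  rfl

theorem lA_smul_right (c : ℂ) (η τ : K.Fm p) : lA K i η (c • τ) z = conj c * lA K i η τ z := by
  unfold lA
  rw [mul_left_comm, ← As_smul_right]
  rfl

theorem lT_conj (k1 : K1Stmt) (hz : z ∈ (K.e i).target) (η τ : K.Fm p) :
    lT K i τ η z = conj (lT K i η τ z) := by
  unfold lT
  rw [map_mul, Complex.conj_ofReal, ← Ts_conj k1 (K.wpos i z hz)]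

theorem lA_conj (k1 : K1Stmt) (hz : z ∈ (K.e i).target) (η τ : K.Fm p) :
    lA K i τ η z = conj (lA K i η τ z) := by
  unfold lA
  rw [map_mul, Complex.conj_ofReal, ← As_conj k1 (K.wpos i z hz)
    (C2.cHess_isHermitian ((K.φsm i z hz).of_le (by norm_cast)))]

end add

variable [T2Space M] [BorelSpace M]

theorem gT_re {p : ℕ} (ka : K3aStmt n M K) {η : K.Fm p} (h1 : K.IsForm η) (h2 : K.Smooth η)
    {i : K.I} {x : M} (hx : x ∈ (K.e i).source) :
    (gT η η x).re = (lT K i η η (K.e i x)).re := by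
  rw [← dT_gT, ka.dT_eq p η h1 h2 i x hx]
  unfold lT
  rw [Complex.re_ofReal_mul]
  rfl

theorem gA_re {p : ℕ} (ka : K3aStmt n M K) {η : K.Fm p} (h1 : K.IsForm η)
    {i : K.I} {x : M} (hx : x ∈ (K.e i).source) :
    (gA η η x).re = (lA K i η η (K.e i x)).re := by
  rw [← dA_gA, ka.dA_eq p η h1 i x hx]
  unfold lA
  rw [Complex.re_ofReal_mul]
  rfl

theorem gT_re_eq {p : ℕ} (k1 : K1Stmt) (ka : K3aStmt n M K) {η τ : K.Fm p} (h1 : K.IsForm η)
    (h2 : K.Smooth η) (h3 : K.IsForm τ) (h4 : K.Smooth τ) {i : K.I} {x : M}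
    (hx : x ∈ (K.e i).source) : (gT η τ x).re = (lT K i η τ (K.e i x)).re := by
  have e := gT_re ka (form_add K h1 h3) (smooth_add K h2 h4) hx
  have hz := (K.e i).map_source hx
  have hz' := (K.e (K.ix x)).map_source (mem_ix K x)
  unfold gT at e ⊢
  rw [lT_add_left _ h2 h4 hz', lT_add_left _ h2 h4 hz, lT_add_right _ h2 h4 hz',
    lT_add_right _ h2 h4 hz', lT_add_right _ h2 h4 hz, lT_add_right _ h2 h4 hz,
    lT_conj k1 hz' η τ, lT_conj k1 hz η τ, ← add_assoc, ← add_assoc] at e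
  exact polar e (gT_re ka h1 h2 hx) (gT_re ka h3 h4 hx)

theorem gA_re_eq {p : ℕ} (k1 : K1Stmt) (ka : K3aStmt n M K) {η τ : K.Fm p} (h1 : K.IsForm η)
    (h3 : K.IsForm τ) {i : K.I} {x : M}
    (hx : x ∈ (K.e i).source) : (gA η τ x).re = (lA K i η τ (K.e i x)).re := by
  have e := gA_re ka (form_add K h1 h3) hx
  have hz := (K.e i).map_source hx
  have hz' := (K.e (K.ix x)).map_source (mem_ix K x)
  unfold gA at e ⊢
  rw [lA_add_left, lA_add_left, lA_add_right, lA_add_right, lA_add_right, lA_add_right,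
    lA_conj k1 hz' η τ, lA_conj k1 hz η τ, ← add_assoc, ← add_assoc] at e
  exact polar e (gA_re ka h1 hx) (gA_re ka h3 hx)

theorem re_I (a : ℂ) : (conj Complex.I * a).re = a.im := by simp

/-- the densities in any chart -/
theorem gT_eq {p : ℕ} (k1 : K1Stmt) (ka : K3aStmt n M K) {η τ : K.Fm p} (h1 : K.IsForm η)
    (h2 : K.Smooth η) (h3 : K.IsForm τ) (h4 : K.Smooth τ) {i : K.I} {x : M}
    (hx : x ∈ (K.e i).source) : gT η τ x = lT K i η τ (K.e i x) := by
  refine Complex.ext (gT_re_eq k1 ka h1 h2 h3 h4 hx) ?_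
  have e := gT_re_eq k1 ka h1 h2 (form_smul K Complex.I h3) (smooth_smul K Complex.I h4) hx
  unfold gT at e ⊢
  rwa [lT_smul_right _ _ h4 ((K.e i).map_source hx),
    lT_smul_right _ _ h4 ((K.e (K.ix x)).map_source (mem_ix K x)), re_I, re_I] at e

theorem gA_eq {p : ℕ} (k1 : K1Stmt) (ka : K3aStmt n M K) {η τ : K.Fm p} (h1 : K.IsForm η)
    (h3 : K.IsForm τ) {i : K.I} {x : M}
    (hx : x ∈ (K.e i).source) : gA η τ x = lA K i η τ (K.e i x) := by
  refine Complex.ext (gA_re_eq k1 ka h1 h3 hx) ?_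
  have e := gA_re_eq k1 ka h1 (form_smul K Complex.I h3) hx
  unfold gA at e ⊢
  rwa [lA_smul_right, lA_smul_right, re_I, re_I] at e

/-! ### continuity -/

theorem contAt_ev {p : ℕ} {f : Cm n → Af n p} {z : Cm n} (hf : ContinuousAt f z)
    (s : Fin p → Fin n) : ContinuousAt (fun z => ev (f z) s) z :=
  ((ContinuousAlternatingMap.apply ℂ (Cm n) ℂ
    (fun i => Pi.single (s i) (1 : ℂ))).continuous.continuousAt).comp hf

omit [T2Space M] [BorelSpace M] in
theorem contAt_hn {p : ℕ} {i : K.I} {z : Cm n} (hz : z ∈ (K.e i).target) {f g : Cm n → Af n p}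
    (hf : ∀ s, ContinuousAt (fun z => ev (f z) s) z)
    (hg : ∀ s, ContinuousAt (fun z => ev (g z) s) z) :
    ContinuousAt (fun z => hn (K.w i z) (f z) (g z)) z := by
  unfold hn
  refine continuousAt_const.mul ?_
  refine tendsto_finsetSum _ fun s _ => tendsto_finsetSum _ fun t _ => ?_
  refine ContinuousAt.mul (ContinuousAt.mul (hf s) ?_) ?_
  · exact Complex.continuous_conj.continuousAt.comp (hg t)
  · refine tendsto_finsetProd _ fun k _ => ?_
    exact ((continuous_apply (s k)).continuousAt.comp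
      ((continuous_apply (t k)).continuousAt.comp (contAt_inv K i hz)))

omit [T2Space M] [BorelSpace M] in
theorem contAt_exp {i : K.I} {z : Cm n} (hz : z ∈ (K.e i).target) :
    ContinuousAt (fun z => ((Real.exp (-K.φ i z) : ℝ) : ℂ)) z :=
  Complex.continuous_ofReal.continuousAt.comp (Real.continuous_exp.continuousAt.comp
    ((K.φsm i _ hz).continuousAt.neg))

omit [T2Space M] [BorelSpace M] in
theorem contAt_dbV {p : ℕ} {η : K.Fm p} (h : K.Smooth η) {i : K.I} {z : Cm n}
    (hz : z ∈ (K.e i).target) (b : Fin n) : ContinuousAt (fun z => dbV b (η i) z) z := by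
  have h1 : ContinuousAt (fderiv ℝ (η i)) z :=
    ((h i z hz).fderiv_right (m := 0) (by simp)).continuousAt
  unfold dbV
  have h2 : ∀ v : Cm n, ContinuousAt (fun z => fderiv ℝ (η i) z v) z := fun v =>
    ((ContinuousLinearMap.apply ℝ (Af n p) v).continuous.continuousAt).comp h1
  exact ((h2 (Pi.single b 1)).add ((h2 (Pi.single b Complex.I)).const_smul
    Complex.I)).const_smul ((2 : ℂ)⁻¹)

omit [T2Space M] [BorelSpace M] in
theorem contAt_lT {p : ℕ} {η τ : K.Fm p} (h : K.Smooth η) (h' : K.Smooth τ) {i : K.I} {z : Cm n}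
    (hz : z ∈ (K.e i).target) : ContinuousAt (lT K i η τ) z := by
  unfold lT Ts
  refine (contAt_exp hz).mul ?_
  refine tendsto_finsetSum _ fun b _ => tendsto_finsetSum _ fun b' _ => ?_
  refine ContinuousAt.mul ((continuous_apply b').continuousAt.comp
    ((continuous_apply b).continuousAt.comp (contAt_inv K i hz))) ?_
  exact contAt_hn hz (fun s => contAt_ev (contAt_dbV h hz b) s)
    fun s => contAt_ev (contAt_dbV h' hz b') s

theorem contAt_wdz {p : ℕ} {f : Cm n → Af n p} {z : Cm n} (hf : ContinuousAt f z) (c : Fin n)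
    (s : Fin (p + 1) → Fin n) : ContinuousAt (fun z => ev (wdz c (f z)) s) z := by
  unfold ev
  simp only [wdz_apply]
  refine tendsto_finsetSum _ fun i _ => ?_
  refine continuousAt_const.mul (continuousAt_const.mul ?_)
  exact ((ContinuousAlternatingMap.apply ℂ (Cm n) ℂ _).continuous.continuousAt).comp hf

omit [T2Space M] [BorelSpace M] in
theorem contAt_lA {p : ℕ} {η τ : K.Fm p} (h : K.Smooth η) (h' : K.Smooth τ) {i : K.I} {z : Cm n}
    (hz : z ∈ (K.e i).target) : ContinuousAt (lA K i η τ) z := by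
  unfold lA As
  refine (contAt_exp hz).mul ?_
  refine tendsto_finsetSum _ fun b _ => tendsto_finsetSum _ fun b' _ => ?_
  refine ContinuousAt.mul ?_ ?_
  · exact (C2.contDiffAt_cHess (m := 0) (K.φsm i z hz) (by norm_num; norm_cast) b b').continuousAt
  · exact contAt_hn hz (fun s => contAt_wdz (h i z hz).continuousAt b s)
      fun s => contAt_wdz (h' i z hz).continuousAt b' s

omit [T2Space M] [BorelSpace M] in
theorem cont_of_local {f : M → ℂ} {g : K.I → Cm n → ℂ}
    (h : ∀ i x, x ∈ (K.e i).source → f x = g i (K.e i x))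
    (hg : ∀ i z, z ∈ (K.e i).target → ContinuousAt (g i) z) : Continuous f := by
  rw [continuous_iff_continuousAt]
  intro x
  obtain ⟨i, hi⟩ := K.cover x
  have hev : f =ᶠ[𝓝 x] fun x => g i (K.e i x) := by
    filter_upwards [(K.e i).open_source.mem_nhds hi] with y hy
    exact h i y hy
  exact (ContinuousAt.comp (g := g i) (hg i _ ((K.e i).map_source hi))
    ((K.e i).continuousAt hi)).congr hev.symm

theorem cont_gT {p : ℕ} (k1 : K1Stmt) (ka : K3aStmt n M K) {η τ : K.Fm p} (h1 : K.IsForm η)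
    (h2 : K.Smooth η) (h3 : K.IsForm τ) (h4 : K.Smooth τ) : Continuous (gT η τ) :=
  cont_of_local (g := fun i => lT K i η τ) (fun _ _ hx => gT_eq k1 ka h1 h2 h3 h4 hx)
    fun _ _ hz => contAt_lT h2 h4 hz

theorem cont_gA {p : ℕ} (k1 : K1Stmt) (ka : K3aStmt n M K) {η τ : K.Fm p} (h1 : K.IsForm η)
    (h2 : K.Smooth η) (h3 : K.IsForm τ) (h4 : K.Smooth τ) : Continuous (gA η τ) :=
  cont_of_local (g := fun i => lA K i η τ) (fun _ _ hx => gA_eq k1 ka h1 h3 hx)
    fun _ _ hz => contAt_lA h2 h4 hz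

theorem cont_dn {p : ℕ} (ka : K3aStmt n M K) {η ζ : K.Fm p} (h1 : K.IsForm η)
    (h2 : K.Smooth η) (h3 : K.IsForm ζ) (h4 : K.Smooth ζ) : Continuous (K.dn η ζ) :=
  cont_of_local (g := fun i z => (Real.exp (-K.φ i z) : ℂ) * hn (K.w i z) (η i z) (ζ i z))
    (fun i x hx => ka.dn_eq p η ζ h1 h3 i x hx)
    fun i z hz => (contAt_exp hz).mul (contAt_hn hz
      (fun s => contAt_ev (h2 i z hz).continuousAt s) fun s =>
        contAt_ev (h4 i z hz).continuousAt s)

end Vale.Agent.P284.H752.K3
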