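import Vale.Agent.P284.H752.K3.Dens

/-!
# P284 (helper752), theorem K, module K3 (second half): `adj`, `bk`, `bk0`, `int`, `intT`
-/

open scoped ContDiff Topology ComplexConjugate ComplexOrder ENNReal
open Filter Set MeasureTheory

noncomputable section

namespace Vale.Agent.P284.H752.K3

open Vale.Agent.P272.K Vale.Agent.P284.H608.K Vale.Agent.P284.H286.K

variable {n : ℕ} {M : Type} [TopologicalSpace M] [MeasurableSpace M] {K : KA n M}

theorem dh_add {p : ℕ} {η ζ : K.Fm p} (h1 : K.Smooth η) (h2 : K.Smooth ζ) :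
    K.dh (η + ζ) = K.dh η + K.dh ζ := by
  funext i z
  change K.dh (η + ζ) i z = K.dh η i z + K.dh ζ i z
  unfold KA.dh
  split_ifs with hz
  · exact dhL_add _ (diffAt h1 hz) (diffAt h2 hz)
  · rw [add_zero]

theorem S_add {p : ℕ} {η ζ : K.Fm (p + 1)} (h1 : K.Smooth η) (h2 : K.Smooth ζ) :
    K.S (η + ζ) = K.S η + K.S ζ := by
  funext i z
  change K.S (η + ζ) i z = K.S η i z + K.S ζ i z
  unfold KA.S
  split_ifs with hz
  · exact SL_add _ (diffAt h1 hz) (diffAt h2 hz)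
  · rw [add_zero]

theorem dh_target {p : ℕ} (η : K.Fm p) {i : K.I} {z : Cm n} (hz : z ∈ (K.e i).target) :
    K.dh η i z = dhL (K.φ i) (η i) z := by
  unfold KA.dh
  rw [if_pos hz]

theorem S_target {p : ℕ} (η : K.Fm (p + 1)) {i : K.I} {z : Cm n} (hz : z ∈ (K.e i).target) :
    K.S η i z = SL (K.w i) (η i) z := by
  unfold KA.S
  rw [if_pos hz]

theorem kon (K : KA n M) (i : K.I) : KOn (K.e i).target (K.w i) :=
  ⟨K.wsm i, K.wpos i, K.wcl i⟩

variable [T2Space M] [BorelSpace M]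

/-- **int** -/
theorem k3_int {p : ℕ} (ka : K3aStmt n M K) {η ζ : K.Fm p} (h : K.Test η) (h1 : K.IsForm ζ)
    (h2 : K.Smooth ζ) : Integrable (K.dn η ζ) K.μ ∧ Integrable (K.dn ζ η) K.μ := by
  obtain ⟨C, hC, hoff⟩ := h.supp
  exact ⟨integrable_of K (cont_dn ka h.form h.smooth h1 h2) hC fun x hx => dn_off_left _ hoff hx,
    integrable_of K (cont_dn ka h1 h2 h.form h.smooth) hC fun x hx => dn_off _ hoff hx⟩

omit [BorelSpace M] in
theorem gT_off_right {p : ℕ} (η : K.Fm p) {τ : K.Fm p} {C : Set M} (hC : IsClosed C)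
    (h : K.Off C τ) {x : M} (hx : x ∉ C) : gT η τ x = 0 := by
  unfold gT lT Ts
  have h1 := evZero hC h (mem_ix K x) hx
  have h2 : ∀ b, dbV b (τ (K.ix x)) (K.e (K.ix x) x) = 0 := fun b => dbV_zero h1
  simp [h2, hn_zero_right]

omit [BorelSpace M] [T2Space M] in
theorem gA_off_right {p : ℕ} (η : K.Fm p) {τ : K.Fm p} {C : Set M}
    (h : K.Off C τ) {x : M} (hx : x ∉ C) : gA η τ x = 0 := by
  unfold gA lA As
  have h2 := h _ x (mem_ix K x) hx
  simp [h2, wdz_zero, hn_zero_right]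

theorem int_gT {p : ℕ} (k1 : K1Stmt) (ka : K3aStmt n M K) {η τ : K.Fm p} (h1 : K.IsForm η)
    (h2 : K.Smooth η) (h : K.Test τ) : Integrable (gT η τ) K.μ := by
  obtain ⟨C, hC, hoff⟩ := h.supp
  exact integrable_of K (cont_gT k1 ka h1 h2 h.form h.smooth) hC
    fun x hx => gT_off_right _ hC.isClosed hoff hx

theorem int_gA {p : ℕ} (k1 : K1Stmt) (ka : K3aStmt n M K) {η τ : K.Fm p} (h1 : K.IsForm η)
    (h2 : K.Smooth η) (h : K.Test τ) : Integrable (gA η τ) K.μ := by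
  obtain ⟨C, hC, hoff⟩ := h.supp
  exact integrable_of K (cont_gA k1 ka h1 h2 h.form h.smooth) hC
    fun x hx => gA_off_right _ hoff hx

/-- **intT** -/
theorem k3_intT {p : ℕ} (k1 : K1Stmt) (ka : K3aStmt n M K) {η : K.Fm p} (h : K.Test η) :
    Integrable (K.dT η) K.μ ∧ Integrable (K.dA η) K.μ := by
  have e1 : K.dT η = fun x => (gT η η x).re := funext fun x => dT_gT η x
  have e2 : K.dA η = fun x => (gA η η x).re := funext fun x => dA_gA η x
  rw [e1, e2]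
  exact ⟨(int_gT k1 ka h.form h.smooth h).re, (int_gA k1 ka h.form h.smooth h).re⟩

/-- the `L²` product of forms supported in a chart -/
theorem ip_chart {p : ℕ} (ka : K3aStmt n M K) {η ζ : K.Fm p} (h1 : K.IsForm η)
    (h2 : K.Smooth η) (h3 : K.IsForm ζ) (h4 : K.Smooth ζ) {i : K.I} {C : Set M}
    (hCs : C ⊆ (K.e i).source) (hoff : K.Off C η ∨ K.Off C ζ) :
    K.ip η ζ = ∫ z in (K.e i).target, (Real.exp (-K.φ i z) : ℂ) *
      hn (K.w i z) (η i z) (ζ i z) * (K.w i z).det := by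
  unfold KA.ip
  rw [integral_chart K i (cont_dn ka h1 h2 h3 h4).aestronglyMeasurable (fun x hx => ?_)]
  · refine setIntegral_congr_fun (K.e i).open_target.measurableSet fun z hz => ?_
    show K.dn η ζ ((K.e i).symm z) * (K.w i z).det = _
    rw [ka.dn_eq p η ζ h1 h3 i _ ((K.e i).map_target hz), (K.e i).right_inv hz]
  · rcases hoff with h | h
    · exact dn_off_left _ h fun h' => hx (hCs h')
    · exact dn_off _ h fun h' => hx (hCs h')

omit [T2Space M] [BorelSpace M] in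
/-- a form which vanishes off a compact subset of the chart -/
theorem off_chart {p : ℕ} {τ : K.Fm p} (hf : K.IsForm τ) {i : K.I} {C : Set M}
    (hCs : C ⊆ (K.e i).source) (hoff : K.Off C τ) : ∀ z ∉ K.e i '' C, τ i z = 0 := by
  intro z hz
  by_cases hzt : z ∈ (K.e i).target
  · have h1 : (K.e i).symm z ∉ C := fun h => hz ⟨_, h, (K.e i).right_inv hzt⟩
    have := hoff i _ ((K.e i).map_target hzt) h1
    rwa [(K.e i).right_inv hzt] at this
  · exact hf.off i z hzt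

theorem adj_chart {p : ℕ} (k2 : K2AdjStmt) (ka : K3aStmt n M K) {τ : K.Fm p} {η : K.Fm (p + 1)}
    (h1 : K.IsForm τ) (h2 : K.Smooth τ) (h3 : K.IsForm η) (h4 : K.Smooth η) {i : K.I} {C : Set M}
    (hC : IsCompact C) (hCs : C ⊆ (K.e i).source) (hoff : K.Off C τ ∨ K.Off C η) :
    K.ip (K.dh τ) η = K.ip τ (K.S η) := by
  obtain ⟨d1, d2⟩ := ka.dh_form p τ h1 h2
  obtain ⟨s1, s2⟩ := ka.S_form p η h3 h4
  rw [ip_chart ka d1 d2 h3 h4 hCs (hoff.imp (fun h => off_dh hC.isClosed h) id),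
    ip_chart ka h1 h2 s1 s2 hCs (hoff.imp id fun h => off_S hC.isClosed h)]
  have hcc : IsCompact (K.e i '' C) := hC.image_of_continuousOn ((K.e i).continuousOn.mono hCs)
  have hct : K.e i '' C ⊆ (K.e i).target := by
    rintro _ ⟨x, hx, rfl⟩
    exact (K.e i).map_source (hCs hx)
  have h := k2 n p (K.e i).target (K.e i).open_target (K.w i) (kon K i) (K.φ i)
    (fun z hz => K.φsm i z hz) (τ i) (η i) (fun z hz => h2 i z hz) (fun z hz => h4 i z hz)
    ⟨_, hcc, hct, hoff.imp (off_chart h1 hCs) (off_chart h3 hCs)⟩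
  refine Eq.trans ?_ (h.trans ?_)
  · refine setIntegral_congr_fun (K.e i).open_target.measurableSet fun z hz => ?_
    show _ * hn (K.w i z) (K.dh τ i z) (η i z) * _ = _
    rw [dh_target τ hz]
  · refine setIntegral_congr_fun (K.e i).open_target.measurableSet fun z hz => ?_
    show _ = _ * hn (K.w i z) (τ i z) (K.S η i z) * _
    rw [S_target η hz]

theorem ip_add_l {p : ℕ} (ka : K3aStmt n M K) {η η' ζ : K.Fm p} (h1 : K.Test η) (h2 : K.Test η')
    (h3 : K.IsForm ζ) (h4 : K.Smooth ζ) : K.ip (η + η') ζ = K.ip η ζ + K.ip η' ζ := by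
  unfold KA.ip
  rw [dn_add_left]
  exact integral_add (k3_int ka h1 h3 h4).1 (k3_int ka h2 h3 h4).1

theorem ip_add_r {p : ℕ} (ka : K3aStmt n M K) {ζ η η' : K.Fm p} (h1 : K.Test η) (h2 : K.Test η')
    (h3 : K.IsForm ζ) (h4 : K.Smooth ζ) : K.ip ζ (η + η') = K.ip ζ η + K.ip ζ η' := by
  unfold KA.ip
  rw [dn_add_right]
  exact integral_add (k3_int ka h1 h3 h4).2 (k3_int ka h2 h3 h4).2

/-- **adj** -/
theorem k3_adj {p : ℕ} (k2 : K2AdjStmt) (ka : K3aStmt n M K) (τ : K.Fm p) (η : K.Fm (p + 1))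
    (h1 : K.IsForm τ) (h2 : K.Smooth τ) (h3 : K.IsForm η) (h4 : K.Smooth η)
    (ht : K.Test τ ∨ K.Test η) : K.ip (K.dh τ) η = K.ip τ (K.S η) := by
  rcases ht with ht | ht
  · have := local_zero (K := K) (fun τ : K.Fm p => K.ip (K.dh τ) η - K.ip τ (K.S η))
      (fun τ τ' a b => by
        obtain ⟨s1, s2⟩ := ka.S_form p η h3 h4
        rw [dh_add a.smooth b.smooth, ip_add_l ka (ka.dh_test p τ a) (ka.dh_test p τ' b) h3 h4,
          ip_add_l ka a b s1 s2]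
        ring)
      (fun i τ a ⟨C, hC, hCs, hoff⟩ => by
        rw [adj_chart k2 ka a.form a.smooth h3 h4 hC hCs (Or.inl hoff), sub_self]) τ ht
    exact sub_eq_zero.1 this
  · have := local_zero (K := K) (fun η : K.Fm (p + 1) => K.ip (K.dh τ) η - K.ip τ (K.S η))
      (fun η η' a b => by
        obtain ⟨s1, s2⟩ := ka.dh_form p τ h1 h2
        rw [S_add a.smooth b.smooth, ip_add_r ka (ka.S_test p η a) (ka.S_test p η' b) h1 h2,
          ip_add_r ka a b s1 s2]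
        ring)
      (fun i η a ⟨C, hC, hCs, hoff⟩ => by
        rw [adj_chart k2 ka h1 h2 a.form a.smooth hC hCs (Or.inr hoff), sub_self]) η ht
    exact sub_eq_zero.1 this

/-! ### the Bochner-Kodaira identity -/

/-- the sesquilinear density of the identity -/
def FB {p : ℕ} (η τ : K.Fm (p + 1)) (x : M) : ℂ :=
  K.dn (K.dh η) (K.dh τ) x + K.dn (K.S η) (K.S τ) x - gT η τ x - gA η τ x

def FB0 (η τ : K.Fm 0) (x : M) : ℂ :=
  K.dn (K.dh η) (K.dh τ) x - gT η τ x - gA η τ x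

omit [T2Space M] [BorelSpace M] in
theorem gT_add_right {p : ℕ} (η : K.Fm p) {τ τ₂ : K.Fm p} (h1 : K.Smooth τ) (h2 : K.Smooth τ₂)
    (x : M) : gT η (τ + τ₂) x = gT η τ x + gT η τ₂ x :=
  lT_add_right η h1 h2 ((K.e (K.ix x)).map_source (mem_ix K x))

omit [T2Space M] [BorelSpace M] in
theorem gA_add_right {p : ℕ} (η τ τ₂ : K.Fm p) (x : M) :
    gA η (τ + τ₂) x = gA η τ x + gA η τ₂ x := lA_add_right η τ τ₂

theorem int_FB {p : ℕ} (k1 : K1Stmt) (ka : K3aStmt n M K) {η τ : K.Fm (p + 1)} (h1 : K.IsForm η)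
    (h2 : K.Smooth η) (h : K.Test τ) : Integrable (FB η τ) K.μ := by
  obtain ⟨d1, d2⟩ := ka.dh_form _ η h1 h2
  obtain ⟨s1, s2⟩ := ka.S_form p η h1 h2
  exact (((k3_int ka (ka.dh_test _ τ h) d1 d2).2.add (k3_int ka (ka.S_test p τ h) s1 s2).2).sub
    (int_gT k1 ka h1 h2 h)).sub (int_gA k1 ka h1 h2 h)

theorem int_FB0 (k1 : K1Stmt) (ka : K3aStmt n M K) {η τ : K.Fm 0} (h1 : K.IsForm η)
    (h2 : K.Smooth η) (h : K.Test τ) : Integrable (FB0 η τ) K.μ := by
  obtain ⟨d1, d2⟩ := ka.dh_form _ η h1 h2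
  exact ((k3_int ka (ka.dh_test _ τ h) d1 d2).2.sub
    (int_gT k1 ka h1 h2 h)).sub (int_gA k1 ka h1 h2 h)

theorem FB_chart {p : ℕ} (k1 : K1Stmt) (k2 : K2BKStmt) (ka : K3aStmt n M K)
    {η τ : K.Fm (p + 1)} (h1 : K.IsForm η) (h2 : K.Smooth η) (h3 : K.IsForm τ) (h4 : K.Smooth τ)
    {i : K.I} {C : Set M} (hC : IsCompact C) (hCs : C ⊆ (K.e i).source) (hoff : K.Off C τ) :
    ∫ x, FB η τ x ∂K.μ = 0 := by
  obtain ⟨d1, d2⟩ := ka.dh_form _ η h1 h2
  obtain ⟨s1, s2⟩ := ka.S_form p η h1 h2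
  obtain ⟨d3, d4⟩ := ka.dh_form _ τ h3 h4
  obtain ⟨s3, s4⟩ := ka.S_form p τ h3 h4
  have hcc : IsCompact (K.e i '' C) := hC.image_of_continuousOn ((K.e i).continuousOn.mono hCs)
  have hct : K.e i '' C ⊆ (K.e i).target := by
    rintro _ ⟨x, hx, rfl⟩
    exact (K.e i).map_source (hCs hx)
  have hcont : Continuous (FB η τ) :=
    (((cont_dn ka d1 d2 d3 d4).add (cont_dn ka s1 s2 s3 s4)).sub
      (cont_gT k1 ka h1 h2 h3 h4)).sub (cont_gA k1 ka h1 h2 h3 h4)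
  rw [integral_chart K i hcont.aestronglyMeasurable (fun x hx => ?_)]
  · rw [← k2 n p (K.e i).target (K.e i).open_target (K.w i) (kon K i) (K.φ i)
      (fun z hz => K.φsm i z hz) (η i) (τ i) (fun z hz => h2 i z hz) (fun z hz => h4 i z hz)
      ⟨_, hcc, hct, off_chart h3 hCs hoff⟩]
    refine setIntegral_congr_fun (K.e i).open_target.measurableSet fun z hz => ?_
    have hx := (K.e i).map_target hz
    show FB η τ ((K.e i).symm z) * (K.w i z).det = _
    unfold FB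
    rw [ka.dn_eq _ _ _ d1 d3 i _ hx, ka.dn_eq _ _ _ s1 s3 i _ hx, gT_eq k1 ka h1 h2 h3 h4 hx,
      gA_eq k1 ka h1 h3 hx, (K.e i).right_inv hz, dh_target η hz, dh_target τ hz,
      S_target η hz, S_target τ hz]
    unfold lT lA Ts As
    ring
  · have hxC : x ∉ C := fun h' => hx (hCs h')
    unfold FB
    rw [dn_off _ (off_dh hC.isClosed hoff) hxC, dn_off _ (off_S hC.isClosed hoff) hxC,
      gT_off_right _ hC.isClosed hoff hxC, gA_off_right _ hoff hxC]
    ring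

theorem FB0_chart (k1 : K1Stmt) (k2 : K2BK0Stmt) (ka : K3aStmt n M K)
    {η τ : K.Fm 0} (h1 : K.IsForm η) (h2 : K.Smooth η) (h3 : K.IsForm τ) (h4 : K.Smooth τ)
    {i : K.I} {C : Set M} (hC : IsCompact C) (hCs : C ⊆ (K.e i).source) (hoff : K.Off C τ) :
    ∫ x, FB0 η τ x ∂K.μ = 0 := by
  obtain ⟨d1, d2⟩ := ka.dh_form _ η h1 h2
  obtain ⟨d3, d4⟩ := ka.dh_form _ τ h3 h4
  have hcc : IsCompact (K.e i '' C) := hC.image_of_continuousOn ((K.e i).continuousOn.mono hCs)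
  have hct : K.e i '' C ⊆ (K.e i).target := by
    rintro _ ⟨x, hx, rfl⟩
    exact (K.e i).map_source (hCs hx)
  have hcont : Continuous (FB0 η τ) :=
    ((cont_dn ka d1 d2 d3 d4).sub
      (cont_gT k1 ka h1 h2 h3 h4)).sub (cont_gA k1 ka h1 h2 h3 h4)
  rw [integral_chart K i hcont.aestronglyMeasurable (fun x hx => ?_)]
  · rw [← k2 n (K.e i).target (K.e i).open_target (K.w i) (kon K i) (K.φ i)
      (fun z hz => K.φsm i z hz) (η i) (τ i) (fun z hz => h2 i z hz) (fun z hz => h4 i z hz)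
      ⟨_, hcc, hct, off_chart h3 hCs hoff⟩]
    refine setIntegral_congr_fun (K.e i).open_target.measurableSet fun z hz => ?_
    have hx := (K.e i).map_target hz
    show FB0 η τ ((K.e i).symm z) * (K.w i z).det = _
    unfold FB0
    rw [ka.dn_eq _ _ _ d1 d3 i _ hx, gT_eq k1 ka h1 h2 h3 h4 hx,
      gA_eq k1 ka h1 h3 hx, (K.e i).right_inv hz, dh_target η hz, dh_target τ hz]
    unfold lT lA Ts As
    ring
  · have hxC : x ∉ C := fun h' => hx (hCs h')
    unfold FB0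
    rw [dn_off _ (off_dh hC.isClosed hoff) hxC,
      gT_off_right _ hC.isClosed hoff hxC, gA_off_right _ hoff hxC]
    ring

theorem FB_zero {p : ℕ} (k1 : K1Stmt) (k2 : K2BKStmt) (ka : K3aStmt n M K)
    {η τ : K.Fm (p + 1)} (h1 : K.IsForm η) (h2 : K.Smooth η) (h : K.Test τ) :
    ∫ x, FB η τ x ∂K.μ = 0 := by
  refine local_zero (K := K) (fun τ : K.Fm (p + 1) => ∫ x, FB η τ x ∂K.μ) (fun τ τ' a b => ?_)
    (fun i τ a ⟨C, hC, hCs, hoff⟩ => FB_chart k1 k2 ka h1 h2 a.form a.smooth hC hCs hoff) τ h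
  rw [← integral_add (int_FB k1 ka h1 h2 a) (int_FB k1 ka h1 h2 b)]
  refine integral_congr_ae (Eventually.of_forall fun x => ?_)
  show FB η (τ + τ') x = FB η τ x + FB η τ' x
  unfold FB
  rw [dh_add a.smooth b.smooth, S_add a.smooth b.smooth, gT_add_right η a.smooth b.smooth,
    gA_add_right, dn_add_right, dn_add_right]
  simp only [Pi.add_apply]
  ring

theorem FB0_zero (k1 : K1Stmt) (k2 : K2BK0Stmt) (ka : K3aStmt n M K)
    {η τ : K.Fm 0} (h1 : K.IsForm η) (h2 : K.Smooth η) (h : K.Test τ) :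
    ∫ x, FB0 η τ x ∂K.μ = 0 := by
  refine local_zero (K := K) (fun τ : K.Fm 0 => ∫ x, FB0 η τ x ∂K.μ) (fun τ τ' a b => ?_)
    (fun i τ a ⟨C, hC, hCs, hoff⟩ => FB0_chart k1 k2 ka h1 h2 a.form a.smooth hC hCs hoff) τ h
  rw [← integral_add (int_FB0 k1 ka h1 h2 a) (int_FB0 k1 ka h1 h2 b)]
  refine integral_congr_ae (Eventually.of_forall fun x => ?_)
  show FB0 η (τ + τ') x = FB0 η τ x + FB0 η τ' x
  unfold FB0
  rw [dh_add a.smooth b.smooth, gT_add_right η a.smooth b.smooth,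
    gA_add_right, dn_add_right]
  simp only [Pi.add_apply]
  ring

theorem re_int {f : M → ℂ} (hf : Integrable f K.μ) : (∫ x, f x ∂K.μ).re = ∫ x, (f x).re ∂K.μ :=
  (integral_re hf).symm

/-- **bk** -/
theorem k3_bk {p : ℕ} (k1 : K1Stmt) (k2 : K2BKStmt) (ka : K3aStmt n M K) {η : K.Fm (p + 1)}
    (h : K.Test η) : K.nq (K.dh η) + K.nq (K.S η) = (∫ x, K.dT η x ∂K.μ) + ∫ x, K.dA η x ∂K.μ := by
  have t1 := ka.dh_test _ η h
  have t2 := ka.S_test p η h
  have i1 := (k3_int ka t1 t1.form t1.smooth).1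
  have i2 := (k3_int ka t2 t2.form t2.smooth).1
  have i3 := int_gT k1 ka h.form h.smooth h
  have i4 := int_gA k1 ka h.form h.smooth h
  have e : ∫ x, FB η η x ∂K.μ = K.ip (K.dh η) (K.dh η) + K.ip (K.S η) (K.S η) -
      (∫ x, gT η η x ∂K.μ) - ∫ x, gA η η x ∂K.μ := by
    have a1 : ∫ x, (K.dn (K.dh η) (K.dh η) x + K.dn (K.S η) (K.S η) x) ∂K.μ =
        (∫ x, K.dn (K.dh η) (K.dh η) x ∂K.μ) + ∫ x, K.dn (K.S η) (K.S η) x ∂K.μ :=
      integral_add i1 i2
    have a2 : ∫ x, (K.dn (K.dh η) (K.dh η) x + K.dn (K.S η) (K.S η) x - gT η η x) ∂K.μ =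
        (∫ x, (K.dn (K.dh η) (K.dh η) x + K.dn (K.S η) (K.S η) x) ∂K.μ) - ∫ x, gT η η x ∂K.μ :=
      integral_sub (i1.add i2) i3
    have a3 : ∫ x, (K.dn (K.dh η) (K.dh η) x + K.dn (K.S η) (K.S η) x - gT η η x -
        gA η η x) ∂K.μ =
        (∫ x, (K.dn (K.dh η) (K.dh η) x + K.dn (K.S η) (K.S η) x - gT η η x) ∂K.μ) -
          ∫ x, gA η η x ∂K.μ :=
      integral_sub ((i1.add i2).sub i3) i4
    unfold KA.ip
    rw [← a1, ← a2, ← a3]
    rfl
  have e0 := FB_zero k1 k2 ka h.form h.smooth h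
  rw [e] at e0
  have e1 := congrArg Complex.re e0
  have e2 : ∫ x, K.dT η x ∂K.μ = (∫ x, gT η η x ∂K.μ).re := by
    rw [re_int i3]
    exact integral_congr_ae (Eventually.of_forall fun x => dT_gT η x)
  have e3 : ∫ x, K.dA η x ∂K.μ = (∫ x, gA η η x ∂K.μ).re := by
    rw [re_int i4]
    exact integral_congr_ae (Eventually.of_forall fun x => dA_gA η x)
  simp only [Complex.sub_re, Complex.add_re, Complex.zero_re] at e1
  unfold KA.nq
  rw [e2, e3]
  linarith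

/-- **bk0** -/
theorem k3_bk0 (k1 : K1Stmt) (k2 : K2BK0Stmt) (ka : K3aStmt n M K) {η : K.Fm 0}
    (h : K.Test η) : K.nq (K.dh η) = (∫ x, K.dT η x ∂K.μ) + ∫ x, K.dA η x ∂K.μ := by
  have t1 := ka.dh_test _ η h
  have i1 := (k3_int ka t1 t1.form t1.smooth).1
  have i3 := int_gT k1 ka h.form h.smooth h
  have i4 := int_gA k1 ka h.form h.smooth h
  have e : ∫ x, FB0 η η x ∂K.μ = K.ip (K.dh η) (K.dh η) -
      (∫ x, gT η η x ∂K.μ) - ∫ x, gA η η x ∂K.μ := by
    have a2 : ∫ x, (K.dn (K.dh η) (K.dh η) x - gT η η x) ∂K.μ =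
        (∫ x, K.dn (K.dh η) (K.dh η) x ∂K.μ) - ∫ x, gT η η x ∂K.μ := integral_sub i1 i3
    have a3 : ∫ x, (K.dn (K.dh η) (K.dh η) x - gT η η x - gA η η x) ∂K.μ =
        (∫ x, (K.dn (K.dh η) (K.dh η) x - gT η η x) ∂K.μ) - ∫ x, gA η η x ∂K.μ :=
      integral_sub (i1.sub i3) i4
    unfold KA.ip
    rw [← a2, ← a3]
    rfl
  have e0 := FB0_zero k1 k2 ka h.form h.smooth h
  rw [e] at e0
  have e1 := congrArg Complex.re e0
  have e2 : ∫ x, K.dT η x ∂K.μ = (∫ x, gT η η x ∂K.μ).re := by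
    rw [re_int i3]
    exact integral_congr_ae (Eventually.of_forall fun x => dT_gT η x)
  have e3 : ∫ x, K.dA η x ∂K.μ = (∫ x, gA η η x ∂K.μ).re := by
    rw [re_int i4]
    exact integral_congr_ae (Eventually.of_forall fun x => dA_gA η x)
  simp only [Complex.sub_re, Complex.zero_re] at e1
  unfold KA.nq
  rw [e2, e3]
  linarith

/-- **K3** from its first half -/
theorem k3_of_k3a (k1 : K1Stmt) (ka2 : K2AdjStmt) (kbk : K2BKStmt) (kbk0 : K2BK0Stmt)
    (ka : K3aStmt n M K) : K3Stmt n M K where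
  dn_eq := ka.dn_eq
  dT_eq := ka.dT_eq
  dA_eq := ka.dA_eq
  dh_form := ka.dh_form
  S_form := ka.S_form
  dh_test := ka.dh_test
  S_test := ka.S_test
  dh_dh := ka.dh_dh
  int := fun _ _ _ h h1 h2 => k3_int ka h h1 h2
  intT := fun _ _ h => k3_intT k1 ka h
  adj := fun _ τ η h1 h2 h3 h4 h => k3_adj ka2 ka τ η h1 h2 h3 h4 h
  bk := fun _ _ h => k3_bk k1 kbk ka h
  bk0 := fun _ h => k3_bk0 k1 kbk0 ka h

end Vale.Agent.P284.H752.K3
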