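import Vale.Agent.P284.H286.K.EngA
import Vale.Agent.P272.K.C2.Mat
import Mathlib.MeasureTheory.Integral.Bochner.ContinuousLinearMap
import Mathlib.MeasureTheory.Function.LocallyIntegrable

/-!
# P284 (helper752), theorem K, module K3 (second half): the measure in the charts
-/

open scoped ContDiff Topology ComplexConjugate ComplexOrder ENNReal
open Filter Set MeasureTheory

noncomputable section

namespace Vale.Agent.P284.H752.K3

open Vale.Agent.P272.K Vale.Agent.P284.H608.K

variable {n : ℕ} {M : Type} [TopologicalSpace M] [MeasurableSpace M] (K : KA n M)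

theorem contAt_w (i : K.I) {z : Cm n} (hz : z ∈ (K.e i).target) : ContinuousAt (K.w i) z :=
  continuousAt_pi.2 fun a => continuousAt_pi.2 fun b => (K.wsm i z hz a b).continuousAt

theorem contAt_det (i : K.I) {z : Cm n} (hz : z ∈ (K.e i).target) :
    ContinuousAt (fun z => (K.w i z).det) z :=
  ContinuousAt.comp (g := fun A : Matrix (Fin n) (Fin n) ℂ => A.det) (f := K.w i)
    continuous_id.matrix_det.continuousAt (contAt_w K i hz)

theorem contAt_inv (i : K.I) {z : Cm n} (hz : z ∈ (K.e i).target) :
    ContinuousAt (fun z => (K.w i z)⁻¹) z := by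
  have hdet : (K.w i z).det ≠ 0 := (K.wpos i _ hz).det_pos.ne'
  have ha : ContinuousAt (fun z => (K.w i z).adjugate) z :=
    ContinuousAt.comp (g := fun A : Matrix (Fin n) (Fin n) ℂ => A.adjugate) (f := K.w i)
      continuous_id.matrix_adjugate.continuousAt (contAt_w K i hz)
  simp only [Matrix.inv_def, Ring.inverse_eq_inv']
  exact ((contAt_det K i hz).inv₀ hdet).smul ha

/-- the density of the measure in the chart -/
def dens (i : K.I) (z : Cm n) : ℝ≥0∞ := ENNReal.ofReal ((K.w i z).det.re)

theorem contOn_det_re (i : K.I) : ContinuousOn (fun z => (K.w i z).det.re) (K.e i).target :=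
  fun _ hz => (Complex.continuous_re.continuousAt.comp (contAt_det K i hz)).continuousWithinAt

theorem aem_dens (i : K.I) : AEMeasurable (dens K i) (volume.restrict (K.e i).target) :=
  ((contOn_det_re K i).aemeasurable (K.e i).open_target.measurableSet).ennreal_ofReal

variable [T2Space M] [BorelSpace M]

theorem aem_symm (i : K.I) :
    AEMeasurable (K.e i).symm ((volume.restrict (K.e i).target).withDensity (dens K i)) :=
  ((K.e i).continuousOn_symm.aemeasurable (K.e i).open_target.measurableSet).mono_ac
    (withDensity_absolutelyContinuous _ _)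

theorem restrict_eq (i : K.I) : K.μ.restrict (K.e i).source =
    ((volume.restrict (K.e i).target).withDensity (dens K i)).map (K.e i).symm := by
  ext s hs
  rw [Measure.map_apply_of_aemeasurable (aem_symm K i) hs, Measure.restrict_apply hs]
  have hso : MeasurableSet (K.e i).source := (K.e i).open_source.measurableSet
  have hns : NullMeasurableSet ((K.e i).symm ⁻¹' s) (volume.restrict (K.e i).target) :=
    ((K.e i).continuousOn_symm.aemeasurable
      (K.e i).open_target.measurableSet).nullMeasurable hs
  rw [withDensity_apply₀ _ hns]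
  have h1 : K.μ (s ∩ (K.e i).source) =
      ∫⁻ x, (s ∩ (K.e i).source).indicator (fun _ => (1 : ℝ≥0∞)) x ∂K.μ := by
    rw [lintegral_indicator (hs.inter hso), setLIntegral_const, one_mul]
  rw [h1, K.hμ i _ (measurable_const.indicator (hs.inter hso)) (fun x hx => by
    rw [Set.indicator_of_notMem]
    exact fun h => hx h.2), ← lintegral_indicator₀ hns]
  refine setLIntegral_congr_fun (K.e i).open_target.measurableSet fun z hz => ?_
  by_cases h : (K.e i).symm z ∈ s
  · rw [Set.indicator_of_mem (show (K.e i).symm z ∈ s ∩ (K.e i).source from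
      ⟨h, (K.e i).map_target hz⟩), Set.indicator_of_mem (show z ∈ (K.e i).symm ⁻¹' s from h),
      one_mul]
    rfl
  · rw [Set.indicator_of_notMem (fun h' : (K.e i).symm z ∈ s ∩ (K.e i).source => h h'.1),
      Set.indicator_of_notMem (show z ∉ (K.e i).symm ⁻¹' s from h), zero_mul]

/-- integrals of functions supported in a chart -/
theorem integral_chart (i : K.I) {f : M → ℂ} (hf : AEStronglyMeasurable f K.μ)
    (h0 : ∀ x, x ∉ (K.e i).source → f x = 0) :
    ∫ x, f x ∂K.μ = ∫ z in (K.e i).target, f ((K.e i).symm z) * (K.w i z).det := by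
  rw [← setIntegral_eq_integral_of_forall_compl_eq_zero (s := (K.e i).source) fun x hx => h0 x hx,
    restrict_eq K i, integral_map (aem_symm K i) (by
      rw [← restrict_eq K i]
      exact hf.restrict),
    integral_withDensity_eq_integral_toReal_smul₀ (aem_dens K i)
      (Eventually.of_forall fun z => ENNReal.ofReal_lt_top)]
  refine setIntegral_congr_fun (K.e i).open_target.measurableSet fun z hz => ?_
  have hd := (K.wpos i z hz).det_pos
  have h1 : (dens K i z).toReal = (K.w i z).det.re :=
    ENNReal.toReal_ofReal (Complex.pos_iff.1 hd).1.le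
  have h2 : (((K.w i z).det.re : ℝ) : ℂ) = (K.w i z).det :=
    Complex.ext rfl (Complex.pos_iff.1 hd).2
  simp only [h1]
  rw [Complex.real_smul, h2, mul_comm]

/-- `μ` is finite on compact sets -/
theorem loc_fin : IsLocallyFiniteMeasure K.μ := by
  refine ⟨fun x => ?_⟩
  obtain ⟨i, hi⟩ := K.cover x
  have hz := (K.e i).map_source hi
  -- near `z` the density is bounded
  have hc := (contOn_det_re K i).continuousAt ((K.e i).open_target.mem_nhds hz)
  have hb : ∀ᶠ y in 𝓝 (K.e i x), (K.w i y).det.re < (K.w i (K.e i x)).det.re + 1 :=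
    hc.eventually_lt continuousAt_const (by linarith)
  obtain ⟨r, hr, hrb⟩ := Metric.eventually_nhds_iff_ball.1
    (hb.and ((K.e i).open_target.mem_nhds hz))
  set B := Metric.ball (K.e i x) r
  have hBt : B ⊆ (K.e i).target := fun y hy => (hrb y hy).2
  have hopen : IsOpen ((K.e i).symm '' B) :=
    (K.e i).symm.isOpen_image_of_subset_source Metric.isOpen_ball hBt
  refine ⟨(K.e i).symm '' B, hopen.mem_nhds ⟨K.e i x, Metric.mem_ball_self hr,
    (K.e i).left_inv hi⟩, ?_⟩
  have hsub : (K.e i).symm '' B ⊆ (K.e i).source := by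
    rintro _ ⟨y, hy, rfl⟩
    exact (K.e i).map_target (hBt hy)
  have h1 : K.μ ((K.e i).symm '' B) = (K.μ.restrict (K.e i).source) ((K.e i).symm '' B) := by
    rw [Measure.restrict_apply hopen.measurableSet, inter_eq_left.2 hsub]
  rw [h1, restrict_eq K i, Measure.map_apply_of_aemeasurable (aem_symm K i) hopen.measurableSet]
  have hns : NullMeasurableSet ((K.e i).symm ⁻¹' ((K.e i).symm '' B))
      (volume.restrict (K.e i).target) :=
    ((K.e i).continuousOn_symm.aemeasurable
      (K.e i).open_target.measurableSet).nullMeasurable hopen.measurableSet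
  rw [withDensity_apply₀ _ hns, Measure.restrict_restrict₀ hns]
  have h2 : (K.e i).symm ⁻¹' ((K.e i).symm '' B) ∩ (K.e i).target = B := by
    ext z
    constructor
    · rintro ⟨⟨y, hy, hyz⟩, hz⟩
      have : y = z := (K.e i).symm.injOn (hBt hy) hz hyz
      rwa [← this]
    · intro hz
      exact ⟨⟨z, hz, rfl⟩, hBt hz⟩
  rw [h2]
  calc ∫⁻ z in B, dens K i z ≤ ∫⁻ _ in B, ENNReal.ofReal ((K.w i (K.e i x)).det.re + 1) :=
        setLIntegral_mono measurable_const fun z hz => ENNReal.ofReal_le_ofReal (hrb z hz).1.le
    _ = ENNReal.ofReal ((K.w i (K.e i x)).det.re + 1) * volume B := by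
        rw [setLIntegral_const]
    _ < ⊤ := ENNReal.mul_lt_top ENNReal.ofReal_lt_top measure_ball_lt_top

/-- continuous functions with compact support are integrable -/
theorem integrable_of {f : M → ℂ} (hf : Continuous f) {C : Set M} (hC : IsCompact C)
    (h0 : ∀ x, x ∉ C → f x = 0) : Integrable f K.μ := by
  have := loc_fin K
  exact hf.integrable_of_hasCompactSupport (HasCompactSupport.intro hC h0)

theorem integrable_of_real {f : M → ℝ} (hf : Continuous f) {C : Set M} (hC : IsCompact C)
    (h0 : ∀ x, x ∉ C → f x = 0) : Integrable f K.μ := by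
  have := loc_fin K
  exact hf.integrable_of_hasCompactSupport (HasCompactSupport.intro hC h0)

end Vale.Agent.P284.H752.K3
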